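import Vale.Agent.P088.Bridge
import Vale.Agent.P088F.Final

open MeasureTheory Set
open scoped Manifold ContDiff
open Vale.Agent.P088.Spec

namespace Vale.Agent.Results.P088.Calderon

variable {n : ℕ} {E H : Type} [NormedAddCommGroup E] [NormedSpace ℝ E] [MeasureSpace E]
  [TopologicalSpace H] (I : ModelWithCorners ℝ E H) (e : Fin n → E)

/-- The differential of a diffeomorphism. -/
noncomputable def push {M : Type} [TopologicalSpace M] [ChartedSpace H M] (Φ : Diffeomorph I I M M ∞) (x : M)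
    (v : TangentSpace I x) : TangentSpace I (Φ x) := mfderiv I I Φ x v

/-- The statement for the model `I`, the basis `e` and the action `act`. -/
def Holds {F B : Type} [NormedAddCommGroup F] [NormedSpace ℝ F] [InnerProductSpace ℂ F]
    [NormedRing B] [NormedSpace ℝ B] [StarMul B] (act : B → F → F) : Prop :=
  ∀ (M : Type) [TopologicalSpace M] [ChartedSpace H M] [IsManifold I ∞ M] [T2Space M]
    [CompactSpace M] [ConnectedSpace M] [MeasurableSpace M] [BorelSpace M]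
    (Γ : Set M) (g₁ g₂ : Met I M) (A₁ A₂ : Conn I M B), IsPatch I Γ → SameData e act Γ g₁ g₂ A₁ A₂ →
    ∃ (Φ : Diffeomorph I I M M ∞) (U : M → B), IsUni I U ∧ (∀ x ∈ Γ, Φ x = x ∧ U x = 1) ∧
      (∀ x v w, met g₂ x v w = met g₁ (Φ x) (push I Φ x v) (push I Φ x w)) ∧
      ∀ x v, val A₂ x v = star (U x) * val A₁ (Φ x) (push I Φ x v) * U x + star (U x) * dif I U x v

/-- The statement for the fibre `F` with its complex linear endomorphisms. -/
def HoldsFor (F : Type) [NormedAddCommGroup F] [NormedSpace ℝ F] [InnerProductSpace ℂ F]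
    [SMulCommClass ℂ ℝ F] [CompleteSpace F] : Prop :=
  Holds I e fun (T : F →L[ℂ] F) (a : F) => T a

theorem result (n N : ℕ) [NeZero n] (hn : 3 ≤ n) (hN : 1 ≤ N) :
    HoldsFor (𝓡∂ n) (fun i : Fin n => EuclideanSpace.single i (1 : ℝ)) (EuclideanSpace ℂ (Fin N)) := by
  rintro M _ _ _ _ _ _ _ _ Γ g₁ g₂ A₁ A₂ ⟨hne, hΓ⟩ hD
  obtain ⟨μ₁, μ₂, S₁, S₂, h1, h2, h3, h4, h5⟩ := hD.to
  obtain ⟨Φ, U, u1, u2, u3, u4, u5⟩ :=
    P088.working hn hN Γ hΓ hne g₁ g₂ μ₁ μ₂ h1 h2 _ _ S₁ S₂ h3 h4 h5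
  exact ⟨Φ, U, ⟨u1, u2⟩, u3, u4, u5⟩

end Vale.Agent.Results.P088.Calderon
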