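import Vale.Agent.P088R.RFin

open MeasureTheory Set
open scoped Manifold ContDiff
open Vale.Agent.P088.Spec

namespace Vale.Agent.Results.P088.Full

variable {n : ℕ} {E H : Type} [NormedAddCommGroup E] [NormedSpace ℝ E] [MeasureSpace E]
  [TopologicalSpace H] (I : ModelWithCorners ℝ E H) (e : Fin n → E)

/-- The differential of a diffeomorphism. -/
noncomputable def push {M : Type} [TopologicalSpace M] [ChartedSpace H M] (Φ : Diffeomorph I I M M ∞) (x : M)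
    (v : TangentSpace I x) : TangentSpace I (Φ x) := mfderiv I I Φ x v

variable {F B : Type} [NormedAddCommGroup F] [NormedSpace ℝ F] [InnerProductSpace ℂ F]
  [NormedRing B] [NormedSpace ℝ B] [StarMul B] (act : B → F → F)

/-- The graph of the data on `Γ`: `c` is the value of the form at `f, h`. -/
def Data {M : Type} [TopologicalSpace M] [ChartedSpace H M] [IsManifold I ∞ M] [MeasurableSpace M]
    (Γ : Set M) (g : Met I M) (A : Conn I M B) (f h : M → F) (c : ℂ) : Prop :=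
  IsTest I Γ f ∧ IsTest I Γ h ∧ ∃ (μ : Measure M) (u w : M → F), IsVol e g μ ∧
    IsSol e act g μ A f u ∧ IsSol e act g μ A h w ∧ c = form e act g μ A u w

/-- The statement for the model `I`, the basis `e` and the action `act`. -/
def Holds : Prop :=
  ∀ (M : Type) [TopologicalSpace M] [ChartedSpace H M] [IsManifold I ∞ M] [T2Space M]
    [CompactSpace M] [ConnectedSpace M] [MeasurableSpace M] [BorelSpace M]
    (Γ : Set M), IsPatch I Γ →
    (∀ (g : Met I M) (A : Conn I M B) (f h : M → F), IsTest I Γ f → IsTest I Γ h →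
      ∃! c, Data I e act Γ g A f h c) ∧
    ∀ (g₁ g₂ : Met I M) (A₁ A₂ : Conn I M B), Data I e act Γ g₁ A₁ = Data I e act Γ g₂ A₂ →
    ∃ (Φ : Diffeomorph I I M M ∞) (U : M → B), IsUni I U ∧ (∀ x ∈ Γ, Φ x = x ∧ U x = 1) ∧
      (∀ x v w, met g₂ x v w = met g₁ (Φ x) (push I Φ x v) (push I Φ x w)) ∧
      ∀ x v, val A₂ x v = star (U x) * val A₁ (Φ x) (push I Φ x v) * U x + star (U x) * dif I U x v

/-- The statement for the fibre `F` with its complex linear endomorphisms. -/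
def HoldsFor (F : Type) [NormedAddCommGroup F] [NormedSpace ℝ F] [InnerProductSpace ℂ F]
    [SMulCommClass ℂ ℝ F] [CompleteSpace F] : Prop :=
  Holds I e fun (T : F →L[ℂ] F) (a : F) => T a

theorem result (n N : ℕ) [NeZero n] (hn : 3 ≤ n) (hN : 1 ≤ N) :
    HoldsFor (𝓡∂ n) (fun i : Fin n => EuclideanSpace.single i (1 : ℝ)) (EuclideanSpace ℂ (Fin N)) := by
  rintro M _ _ _ _ _ _ _ _ Γ ⟨hne, hΓ⟩
  refine ⟨fun g A f h hf hh => ?_, fun g₁ g₂ A₁ A₂ hD => ?_⟩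
  · obtain ⟨μ, hv, s⟩ := P088.exists_data hΓ hne g A.to
    obtain ⟨u, hu⟩ := s f hf.1
    obtain ⟨w, hw⟩ := s h hh.1
    refine ⟨P088.form g μ A.to u w,
      ⟨hf, hh, μ, u, w, hv, ⟨hu.1, hu.2, hu.3⟩, ⟨hw.1, hw.2, hw.3⟩, rfl⟩, ?_⟩
    rintro c ⟨-, -, μ', u', w', a1, a2, a3, a4⟩
    have e := P088.form_uniq (u' := u') (w' := w') hv a1 hu hw ⟨a2.1, a2.2.1, a2.2.2⟩
      ⟨a3.1, a3.2.1, a3.2.2⟩
    exact a4.trans e
  obtain ⟨Φ, U, u1, u2, u3, u4, u5⟩ := P088.working2 hΓ hne hn hN g₁ g₂ A₁.to A₂.to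
    fun f h μ u w hf hh hv hu hw => by
      obtain ⟨-, -, μ', u', w', a1, a2, a3, a4⟩ := (congrFun (congrFun (congrFun hD f) h) _).mp
        ⟨hf, hh, μ, u, w, hv, ⟨hu.1, hu.2, hu.3⟩, ⟨hw.1, hw.2, hw.3⟩, rfl⟩
      exact ⟨μ', u', w', a1, ⟨a2.1, a2.2.1, a2.2.2⟩, ⟨a3.1, a3.2.1, a3.2.2⟩, a4⟩
  exact ⟨Φ, U, ⟨u1, u2⟩, u3, u4, u5⟩

end Vale.Agent.Results.P088.Full
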